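import Mathlib
import Vale.Agent.P095.Amenable.Defs

/-!
From a norm approximation on a projection to an approximate subequivalence of the cut; and a
bound for the unit of a simple algebra by copies of a positive element.
-/

noncomputable section

open scoped CStarAlgebra
open Finset

namespace Vale.Agent.P095.Amenable.Small

universe u

variable {B : Type u} [CStarAlgebra B] [PartialOrder B] [StarOrderedRing B]

lemma cont_cut (t : ℝ) : Continuous fun x : ℝ => max (x - t) 0 :=
  (continuous_id.sub continuous_const).max continuous_const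

lemma cut_nonneg (D : B) (t : ℝ) : 0 ≤ cut D t := cfc_nonneg fun _ _ => le_max_right _ _

/-- The multiplier of the compression. -/
def mult (η η' x : ℝ) : ℝ := Real.sqrt (max (x - η) 0 / (max x η - η'))

lemma cont_mult {η η' : ℝ} (h : η' < η) : Continuous (mult η η') :=
  ((cont_cut η).div ((continuous_id.max continuous_const).sub continuous_const) fun x =>
    ne_of_gt (sub_pos.2 (h.trans_le (le_max_right x η)))).sqrt

lemma mult_sq {η η' : ℝ} (h : η' < η) (x : ℝ) :
    mult η η' x * (x - η') * mult η η' x = max (x - η) 0 := by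
  have hpos : 0 < max x η - η' := sub_pos.2 (h.trans_le (le_max_right x η))
  have e : mult η η' x * mult η η' x = max (x - η) 0 / (max x η - η') :=
    Real.mul_self_sqrt (div_nonneg (le_max_right _ _) hpos.le)
  rw [mul_right_comm, e]
  rcases le_or_gt x η with hx | hx
  · rw [max_eq_right (sub_nonpos.2 hx)]; simp
  · rw [max_eq_left hx.le] at hpos ⊢
    field_simp

/-- If K lies below star Z * Z then approximately K = star (Z * G) * (Z * G). -/
lemma exists_factor {Z K : B} (hK : 0 ≤ K) (h : K ≤ star Z * Z) {γ : ℝ} (hγ : 0 < γ) :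
    ∃ G : B, ‖star (Z * G) * (Z * G) - K‖ ≤ γ := by
  set M := star Z * Z with hM
  have hM0 : 0 ≤ M := star_mul_self_nonneg Z
  have hMsa : IsSelfAdjoint M := IsSelfAdjoint.of_nonneg hM0
  set f : ℝ → ℝ := fun t => (Real.sqrt (max t 0 + γ))⁻¹ with hf
  have hfc : Continuous f :=
    ((((continuous_id.max continuous_const).add continuous_const)).sqrt).inv₀ fun t =>
      Real.sqrt_ne_zero'.2 (add_pos_of_nonneg_of_pos (le_max_right t 0) hγ)
  set R0 := cfc f M with hR0
  have hR0sa : IsSelfAdjoint R0 := cfc_predicate _ M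
  have hone : R0 * (M + algebraMap ℝ B γ) * R0 = 1 := by
    have e : M + algebraMap ℝ B γ = cfc (fun t : ℝ => t + γ) M := by
      rw [cfc_add_const (R := ℝ) γ (fun t : ℝ => t) M continuous_id.continuousOn hMsa,
        cfc_id' ℝ M hMsa]
    rw [e, hR0, ← cfc_mul f (fun t : ℝ => t + γ) M hfc.continuousOn
      (continuous_id.add continuous_const).continuousOn,
      ← cfc_mul (fun t => f t * (t + γ)) f M
      (hfc.mul (continuous_id.add continuous_const)).continuousOn hfc.continuousOn]
    rw [cfc_congr (g := fun _ => (1 : ℝ)) fun t ht => ?_, cfc_const_one ℝ M hMsa]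
    have ht0 : 0 ≤ t := spectrum_nonneg_of_nonneg hM0 ht
    have hs : Real.sqrt (t + γ) ≠ 0 := Real.sqrt_ne_zero'.2 (add_pos_of_nonneg_of_pos ht0 hγ)
    simp only [hf, max_eq_left ht0]
    field_simp
    rw [Real.sq_sqrt (by linarith)]
  set Ks := CFC.sqrt K with hKs
  have hKsa : star Ks = Ks := (IsSelfAdjoint.of_nonneg (CFC.sqrt_nonneg K)).star_eq
  have hKK : Ks * Ks = K := CFC.sqrt_mul_sqrt_self K hK
  have hexact : star (Z * (R0 * Ks)) * (Z * (R0 * Ks))
      = Ks * (R0 * M * R0) * Ks := by
    simp only [star_mul, hKsa, hR0sa.star_eq, hM, mul_assoc]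
  have hsplit : R0 * M * R0 = 1 - γ • (R0 * R0) := by
    rw [eq_sub_iff_add_eq, ← hone, mul_add, add_mul]
    congr 1
    rw [Algebra.algebraMap_eq_smul_one, mul_smul_comm, mul_one, smul_mul_assoc]
  refine ⟨R0 * Ks, ?_⟩
  rw [hexact, hsplit, mul_sub, sub_mul, mul_one, hKK, mul_smul_comm, smul_mul_assoc, sub_sub_cancel_left,
    norm_neg, norm_smul, Real.norm_eq_abs, abs_of_pos hγ]
  refine mul_le_of_le_one_right hγ.le ?_
  have hle : R0 * K * R0 ≤ 1 := by
    have h1 : R0 * K * R0 ≤ R0 * (M + algebraMap ℝ B γ) * R0 :=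
      hR0sa.conjugate_le_conjugate (h.trans (le_add_of_nonneg_right (algebraMap_nonneg B hγ.le)))
    rwa [hone] at h1
  have hnn : 0 ≤ R0 * K * R0 := hR0sa.conjugate_nonneg hK
  have hn := (CStarAlgebra.norm_le_one_iff_of_nonneg _ hnn).2 hle
  have e1 : ‖Ks * (R0 * R0) * Ks‖ = ‖R0 * K * R0‖ := by
    have a1 := CStarRing.norm_star_mul_self (x := R0 * Ks)
    have a2 := CStarRing.norm_self_mul_star (x := R0 * Ks)
    simp only [star_mul, hKsa, hR0sa.star_eq] at a1 a2
    rw [show Ks * (R0 * R0) * Ks = Ks * R0 * (R0 * Ks) by simp only [mul_assoc], a1, ← a2,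
      show R0 * Ks * (Ks * R0) = R0 * (Ks * Ks) * R0 by simp only [mul_assoc], hKK]
  rwa [e1]

/-- Compression: an approximation of D on a projection P gives the cut of D below. -/
lemma exists_compress {D S P : B} (hD : IsSelfAdjoint D) (hP : star P = P) (hP2 : P * P = P)
    (hc : Commute D P) {η η' : ℝ} (hη : η' < η)
    (h : ‖P * (star S * S) * P - D * P‖ ≤ η') {γ : ℝ} (hγ : 0 < γ) :
    ∃ C : B, ‖star (S * P * C) * (S * P * C) - cut D η * P‖ ≤ γ := by
  set H₀ := cfc (mult η η') D with hH₀
  have hcH : Commute H₀ P := Commute.cfc_real hc (mult η η')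
  have hPsa : IsSelfAdjoint P := hP
  have hHsa : IsSelfAdjoint (H₀ * P) :=
    (IsSelfAdjoint.commute_iff (cfc_predicate _ D) hPsa).1 hcH
  have hdiff : IsSelfAdjoint (P * (star S * S) * P - D * P) := by
    refine IsSelfAdjoint.sub ?_ ((IsSelfAdjoint.commute_iff hD hPsa).1 hc)
    rw [isSelfAdjoint_iff, star_mul, star_mul, star_mul, star_star, hP]
    simp only [mul_assoc]
  have hlow : D * P - algebraMap ℝ B η' ≤ P * (star S * S) * P := by
    have h1 : algebraMap ℝ B (-η') ≤ P * (star S * S) * P - D * P := by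
      refine le_trans ?_ hdiff.neg_algebraMap_norm_le_self
      rw [← map_neg]
      exact algebraMap_mono B (by linarith)
    rw [map_neg, le_sub_iff_add_le] at h1
    simpa [sub_eq_add_neg, add_comm] using h1
  have hKeq : H₀ * P * (D * P - algebraMap ℝ B η') * (H₀ * P) = cut D η * P := by
    have e1 : D * P - algebraMap ℝ B η' = D * P - η' • (1 : B) := by
      rw [Algebra.algebraMap_eq_smul_one]
    have e2 : cfc (fun x : ℝ => x - η') D = D - η' • (1 : B) := by
      rw [cfc_sub (fun x : ℝ => x) (fun _ : ℝ => η') D continuous_id.continuousOn continuousOn_const,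
        cfc_id' ℝ D hD, cfc_const η' D hD, Algebra.algebraMap_eq_smul_one]
    have e3 : H₀ * (D - η' • (1 : B)) * H₀ = cut D η := by
      rw [← e2, hH₀, cut, ← cfc_mul (mult η η') (fun x : ℝ => x - η') D (cont_mult hη).continuousOn
        (continuous_id.sub continuous_const).continuousOn,
        ← cfc_mul (fun x => mult η η' x * (x - η')) (mult η η') D
        ((cont_mult hη).mul (continuous_id.sub continuous_const)).continuousOn
        (cont_mult hη).continuousOn]
      exact cfc_congr fun x _ => mult_sq hη x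
    rw [e1, ← e3]
    simp only [mul_sub, sub_mul, mul_smul_comm, smul_mul_assoc, mul_one]
    congr 1
    · calc H₀ * P * (D * P) * (H₀ * P) = H₀ * (P * D) * (P * (H₀ * P)) := by simp only [mul_assoc]
        _ = H₀ * (D * P) * (H₀ * P) := by
          rw [← hc.eq, ← mul_assoc P H₀ P, ← hcH.eq, mul_assoc H₀ P P, hP2]
        _ = H₀ * D * (P * (H₀ * P)) := by simp only [mul_assoc]
        _ = H₀ * D * H₀ * P := by
          rw [← mul_assoc P H₀ P, ← hcH.eq, mul_assoc H₀ P P, hP2]; simp only [mul_assoc]
    · congr 1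
      rw [hcH.symm.mul_mul_mul_comm, hP2]
  have hK0 : 0 ≤ cut D η * P := by
    have hcc : Commute (cut D η) P := Commute.cfc_real hc _
    have : cut D η * P = P * cut D η * P := by rw [← hcc.eq, mul_assoc, hP2]
    rw [this]
    exact hPsa.conjugate_nonneg (cut_nonneg D η)
  have hle : cut D η * P ≤ star (S * P * (H₀ * P)) * (S * P * (H₀ * P)) := by
    rw [← hKeq]
    refine (hHsa.conjugate_le_conjugate hlow).trans_eq ?_
    rw [star_mul (S * P), star_mul S P, hP, hHsa.star_eq]
    simp only [mul_assoc]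
  obtain ⟨G, hG⟩ := exists_factor hK0 hle hγ
  exact ⟨H₀ * P * G, by simpa only [mul_assoc] using hG⟩

/-- In a simple algebra finitely many copies of a positive element dominate the unit. -/
lemma exists_copies (hs : IsSimpleUnital B) {a : B} (ha : Nonneg a) (ha0 : a ≠ 0) :
    ∃ (N : ℕ) (T : Fin N → B), ∑ i, star (T i) * a * T i = 1 := by
  obtain ⟨N, p, q, hpq⟩ := hs a ha0
  obtain ⟨y, rfl⟩ := ha
  set z := ∑ i, star (y * q i) * (y * q i) with hz
  have hz0 : 0 ≤ z := sum_nonneg fun i _ => star_mul_self_nonneg _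
  have hzu : IsUnit z := by
    rw [← spectrum.zero_notMem_iff ℝ]
    intro h0
    set g := fun γ : ℝ => cfc (fun t : ℝ => max (γ - |t|) 0 / γ) z
    have key : ∀ γ : ℝ, 0 < γ → ‖(1 : B)‖ ≤ (∑ i, ‖p i * star y‖) * Real.sqrt γ := by
      intro γ hγ
      have hgc : Continuous fun t : ℝ => max (γ - |t|) 0 / γ :=
        ((continuous_const.sub continuous_abs).max continuous_const).div_const _
      have hg1 : 1 ≤ ‖g γ‖ := by
        have := norm_apply_le_norm_cfc (fun t : ℝ => max (γ - |t|) 0 / γ) z h0 hgc.continuousOn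
          (IsSelfAdjoint.of_nonneg hz0)
        simpa [max_eq_left hγ.le, hγ.ne'] using this
      have hgz : ‖g γ * z * g γ‖ ≤ γ := by
        have e : g γ * z * g γ = cfc (fun t : ℝ => max (γ - |t|) 0 / γ * t * (max (γ - |t|) 0 / γ)) z := by
          simp only [g]
          conv_lhs => arg 1; arg 2; rw [← cfc_id' ℝ z (IsSelfAdjoint.of_nonneg hz0)]
          rw [← cfc_mul (fun t : ℝ => max (γ - |t|) 0 / γ) (fun t : ℝ => t) z hgc.continuousOn
            continuous_id.continuousOn,
            ← cfc_mul (fun t : ℝ => max (γ - |t|) 0 / γ * t) (fun t : ℝ => max (γ - |t|) 0 / γ) z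
            (hgc.mul continuous_id).continuousOn hgc.continuousOn]
        rw [e]
        refine norm_cfc_le hγ.le fun t ht => ?_
        rcases le_total γ |t| with ht' | ht'
        · simp [max_eq_right (sub_nonpos.2 ht'), hγ.le]
        · have h1 : max (γ - |t|) 0 / γ ≤ 1 := by
            rw [div_le_one hγ]; exact max_le (by linarith [abs_nonneg t]) hγ.le
          have h2 : 0 ≤ max (γ - |t|) 0 / γ := by positivity
          rw [Real.norm_eq_abs, abs_mul, abs_mul, abs_of_nonneg h2]
          nlinarith [abs_nonneg t, mul_le_mul h1 ht' (abs_nonneg t) zero_le_one]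
      have hq : ∀ i, ‖y * q i * g γ‖ ≤ Real.sqrt γ := by
        intro i
        refine Real.le_sqrt_of_sq_le ?_
        rw [sq, ← CStarRing.norm_star_mul_self]
        refine le_trans (CStarAlgebra.norm_le_norm_of_nonneg_of_le (star_mul_self_nonneg _) ?_) hgz
        have hgsa : IsSelfAdjoint (g γ) := cfc_predicate _ z
        rw [star_mul, hgsa.star_eq, show g γ * star (y * q i) * (y * q i * g γ)
          = g γ * (star (y * q i) * (y * q i)) * g γ by simp only [mul_assoc]]
        exact hgsa.conjugate_le_conjugate (single_le_sum (f := fun i => star (y * q i) * (y * q i))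
          (fun j _ => star_mul_self_nonneg _) (mem_univ i))
      have hsum : g γ = ∑ i, p i * star y * (y * q i * g γ) := by
        calc g γ = (∑ i, p i * (star y * y) * q i) * g γ := by rw [hpq, one_mul]
          _ = _ := by rw [sum_mul]; simp only [mul_assoc]
      calc ‖(1 : B)‖ ≤ ‖g γ‖ := by
            rcases subsingleton_or_nontrivial B with _ | _
            · rw [Subsingleton.elim (g γ) 1]
            · rwa [norm_one]
        _ ≤ ∑ i, ‖p i * star y‖ * Real.sqrt γ := by
            rw [hsum]
            exact (norm_sum_le _ _).trans (sum_le_sum fun i _ =>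
              (norm_mul_le _ _).trans (mul_le_mul_of_nonneg_left (hq i) (norm_nonneg _)))
        _ = _ := (sum_mul _ _ _).symm
    rcases subsingleton_or_nontrivial B with _ | _
    · exact ha0 (Subsingleton.elim _ _)
    set s := ∑ i, ‖p i * star y‖
    have hs0 : 0 ≤ s := sum_nonneg fun i _ => norm_nonneg _
    have := key (1 / (2 * (s + 1)) ^ 2) (by positivity)
    rw [norm_one, Real.sqrt_div' _ (by positivity), Real.sqrt_sq (by positivity), Real.sqrt_one,
      mul_one_div, le_div_iff₀ (by positivity)] at this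
    linarith
  set f : ℝ → ℝ := fun t => (Real.sqrt t)⁻¹
  have hpos : ∀ t ∈ spectrum ℝ z, 0 < t := fun t ht =>
    lt_of_le_of_ne (spectrum_nonneg_of_nonneg hz0 ht) fun e => spectrum.zero_notMem ℝ hzu (e ▸ ht)
  have hfc : ContinuousOn f (spectrum ℝ z) :=
    Real.continuous_sqrt.continuousOn.inv₀ fun t ht => Real.sqrt_ne_zero'.2 (hpos t ht)
  refine ⟨N, fun i => q i * cfc f z, ?_⟩
  have e : ∑ i, star (q i * cfc f z) * (star y * y) * (q i * cfc f z) = cfc f z * z * cfc f z := by
    rw [show cfc f z * z * cfc f z = cfc f z * (∑ i, star (y * q i) * (y * q i)) * cfc f z from rfl,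
      mul_sum, sum_mul]
    refine sum_congr rfl fun i _ => ?_
    rw [star_mul, (cfc_predicate f z : IsSelfAdjoint _).star_eq, star_mul]
    simp only [mul_assoc]
  rw [e]
  conv_lhs => arg 1; arg 2; rw [← cfc_id' ℝ z (IsSelfAdjoint.of_nonneg hz0)]
  rw [← cfc_mul f (fun t : ℝ => t) z hfc continuous_id.continuousOn,
    ← cfc_mul (fun t : ℝ => f t * t) f z (hfc.mul continuous_id.continuousOn) hfc,
    cfc_congr (g := fun _ => (1 : ℝ)) fun t ht => ?_, cfc_const_one ℝ z (IsSelfAdjoint.of_nonneg hz0)]
  have h1 := hpos t ht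
  simp only [f]
  field_simp
  rw [Real.sq_sqrt h1.le]

end Vale.Agent.P095.Amenable.Small
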