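import Mathlib
import Vale.Agent.P095.Amenable.Defs

/-!
Constant diagonal matrices, matrix units and scalar matrices over a C*-algebra.
-/

noncomputable section

open scoped CStarAlgebra
open Finset

namespace Vale.Agent.P095.Amenable.Small

universe u

variable {A : Type u} [CStarAlgebra A] {R L : ℕ}

/-- A constant diagonal matrix. -/
def dg (R : ℕ) : A →⋆ₐ[ℂ] CStarMatrix (Fin R) (Fin R) A where
  toFun a := CStarMatrix.ofMatrix (Matrix.diagonal fun _ => a)
  map_one' := CStarMatrix.ext fun i j => by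
    change (if i = j then (1 : A) else 0) = _
    rw [CStarMatrix.one_apply]
  map_mul' a b := CStarMatrix.ext fun i j => by
    simp [CStarMatrix.ofMatrix_apply, CStarMatrix.mul_apply, Matrix.diagonal_apply]
  map_zero' := CStarMatrix.ext fun i j => by simp [CStarMatrix.ofMatrix_apply, CStarMatrix.zero_apply]
  map_add' a b := CStarMatrix.ext fun i j => by
    by_cases h : i = j <;> simp [CStarMatrix.ofMatrix_apply, Matrix.diagonal_apply, h]
  commutes' z := CStarMatrix.ext fun i j => by
    simp [CStarMatrix.ofMatrix_apply, CStarMatrix.algebraMap_apply, Matrix.diagonal_apply]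
  map_star' a := CStarMatrix.ext fun i j => by
    by_cases h : i = j
    · simp [CStarMatrix.ofMatrix_apply, CStarMatrix.star_apply, Matrix.diagonal_apply, h]
    · simp [CStarMatrix.ofMatrix_apply, CStarMatrix.star_apply, Matrix.diagonal_apply, h, Ne.symm h]

lemma dg_apply (a : A) (i j : Fin R) : dg R a i j = if i = j then a else 0 := rfl

/-- A matrix unit times an element. -/
def sgl (i j : Fin R) (a : A) : CStarMatrix (Fin R) (Fin R) A :=
  CStarMatrix.ofMatrix (Matrix.of fun p q => if p = i ∧ q = j then a else 0)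

lemma sgl_apply (i j : Fin R) (a : A) (p q : Fin R) :
    sgl i j a p q = if p = i ∧ q = j then a else 0 := rfl

lemma star_sgl (i j : Fin R) (a : A) : star (sgl i j a) = sgl j i (star a) :=
  CStarMatrix.ext fun p q => by
    simp only [CStarMatrix.star_apply, sgl_apply]
    split_ifs <;> simp_all

lemma sgl_mul_sgl (i j k l : Fin R) (a b : A) :
    sgl i j a * sgl k l b = if j = k then sgl i l (a * b) else 0 :=
  CStarMatrix.ext fun p q => by
    rw [CStarMatrix.mul_apply]
    simp only [sgl_apply]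
    by_cases hp : p = i <;> by_cases hq : q = l <;> by_cases hjk : j = k <;>
      simp [sgl_apply, CStarMatrix.zero_apply, hp, hq, hjk, eq_comm (a := k)]

lemma sgl_eq_dg_mul (i : Fin R) (a : A) : sgl i i a = dg R a * sgl i i (1 : A) :=
  CStarMatrix.ext fun p q => by
    rw [CStarMatrix.mul_apply]
    simp only [sgl_apply, dg_apply]
    by_cases hp : p = i <;> by_cases hq : q = i <;> simp [hp, hq]

lemma sum_sgl_self (a : A) : ∑ i, sgl i i a = dg R a :=
  CStarMatrix.ext fun p q => by
    have : (∑ i, sgl i i a) p q = ∑ i, sgl i i a p q := Matrix.sum_apply p q univ _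
    rw [this]
    simp only [sgl_apply, dg_apply]
    by_cases h : p = q
    · subst h; simp
    · rw [sum_eq_zero fun i _ => if_neg (by rintro ⟨rfl, rfl⟩; exact h rfl), if_neg h]

lemma sum_sgl_sum (i : Fin R) {ι : Type*} (s : Finset ι) (f : ι → A) :
    ∑ x ∈ s, sgl i i (f x) = sgl i i (∑ x ∈ s, f x) := by
  rw [sgl_eq_dg_mul i (∑ x ∈ s, f x), map_sum, sum_mul]
  exact sum_congr rfl fun x _ => sgl_eq_dg_mul i (f x)

lemma scal_mul (M N : Matrix (Fin L) (Fin L) ℂ) :
    scal M * scal N = (scal (M * N) : CStarMatrix (Fin L) (Fin L) A) :=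
  CStarMatrix.ext fun p q => by
    simp [scal, CStarMatrix.ofMatrix_apply, CStarMatrix.mul_apply, Matrix.mul_apply, map_sum]

lemma star_scal (M : Matrix (Fin L) (Fin L) ℂ) :
    star (scal M : CStarMatrix (Fin L) (Fin L) A) = scal (star M) :=
  CStarMatrix.ext fun p q => by
    simp only [CStarMatrix.star_apply]
    exact (algebraMap_star_comm _).symm

lemma scal_apply (M : Matrix (Fin L) (Fin L) ℂ) (p q : Fin L) :
    (scal M : CStarMatrix (Fin L) (Fin L) A) p q = algebraMap ℂ A (M p q) := rfl

lemma dg_commute_scal (a : A) (M : Matrix (Fin L) (Fin L) ℂ) : Commute (dg L a) (scal M) :=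
  CStarMatrix.ext fun p q => by
    simp [CStarMatrix.mul_apply, dg_apply, scal_apply, Algebra.commutes]

lemma tens_eq (a : A) (M : Matrix (Fin L) (Fin L) ℂ) : tens a M = dg L a * scal M :=
  CStarMatrix.ext fun p q => by
    simp [tens, CStarMatrix.ofMatrix_apply, CStarMatrix.mul_apply, dg_apply, scal_apply,
      Algebra.smul_def, Algebra.commutes]

section Norms

variable [PartialOrder A] [StarOrderedRing A]

lemma norm_dg_le (a : A) : ‖dg R a‖ ≤ ‖a‖ := NonUnitalStarAlgHom.norm_apply_le (dg R) a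

lemma continuous_dg : Continuous (dg R : A → CStarMatrix (Fin R) (Fin R) A) :=
  AddMonoidHomClass.continuous_of_bound (dg R) 1 fun a => by
    simpa using norm_dg_le (R := R) a

lemma norm_proj_le {B : Type u} [CStarAlgebra B] {P : B} (h1 : star P = P) (h2 : P * P = P) :
    ‖P‖ ≤ 1 := by
  have h := CStarRing.norm_star_mul_self (x := P)
  rw [h1, h2] at h
  nlinarith [norm_nonneg P]

lemma norm_scal_le {P : Matrix (Fin L) (Fin L) ℂ} (h1 : star P = P) (h2 : P * P = P) :
    ‖(scal P : CStarMatrix (Fin L) (Fin L) A)‖ ≤ 1 :=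
  norm_proj_le (by rw [star_scal, h1]) (by rw [scal_mul, h2])

lemma norm_sgl_self_le (i : Fin R) (a : A) : ‖sgl i i a‖ ≤ ‖a‖ := by
  rw [sgl_eq_dg_mul]
  have h : ‖sgl i i (1 : A)‖ ≤ 1 :=
    norm_proj_le (by rw [star_sgl, star_one]) (by rw [sgl_mul_sgl, if_pos rfl, one_mul])
  exact (norm_mul_le _ _).trans ((mul_le_mul (norm_dg_le a) h (norm_nonneg _)
    (norm_nonneg a)).trans_eq (mul_one _))

lemma norm_sgl_le (i j : Fin R) (a : A) : ‖sgl i j a‖ ≤ ‖a‖ := by
  have h := CStarRing.norm_star_mul_self (x := sgl i j a)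
  rw [star_sgl, sgl_mul_sgl, if_pos rfl] at h
  have h2 := norm_sgl_self_le j (star a * a)
  rw [h, CStarRing.norm_star_mul_self] at h2
  nlinarith [norm_nonneg (sgl i j a), norm_nonneg a]

lemma norm_le_sum (X : CStarMatrix (Fin R) (Fin R) A) : ‖X‖ ≤ ∑ i, ∑ j, ‖X i j‖ := by
  have e : X = ∑ i, ∑ j, sgl i j (X i j) := CStarMatrix.ext fun p q => by
    have h : (∑ i, ∑ j, sgl i j (X i j)) p q = ∑ i, ∑ j, sgl i j (X i j) p q := by
      refine (Matrix.sum_apply p q univ _).trans (sum_congr rfl fun i _ => ?_)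
      exact Matrix.sum_apply p q univ _
    rw [h]
    simp [sgl_apply, ite_and]
  conv_lhs => rw [e]
  exact (norm_sum_le _ _).trans (sum_le_sum fun i _ => (norm_sum_le _ _).trans
    (sum_le_sum fun j _ => norm_sgl_le i j _))

end Norms

end Vale.Agent.P095.Amenable.Small
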