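import Mathlib
import Vale.Agent.P095.Amenable.Small.Mat

/-!
Matrices over a nuclear algebra form a nuclear algebra.
-/

noncomputable section

open Finset

namespace Vale.Agent.P095.Amenable.Small

universe u

variable {A : Type u} [CStarAlgebra A] {k R : ℕ}

/-- The amplification of a map into matrices. -/
def ampTo (R : ℕ) (φ : A →ₗ[ℂ] Matrix (Fin k) (Fin k) ℂ) :
    CStarMatrix (Fin R) (Fin R) A →ₗ[ℂ] Matrix (Fin (k * R)) (Fin (k * R)) ℂ where
  toFun X := Matrix.of fun s t => φ (X (finProdFinEquiv.symm s).2 (finProdFinEquiv.symm t).2)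
    (finProdFinEquiv.symm s).1 (finProdFinEquiv.symm t).1
  map_add' X Y := by ext s t; simp
  map_smul' z X := by ext s t; simp

/-- The amplification of a map out of matrices. -/
def ampFrom (R : ℕ) (ψ : Matrix (Fin k) (Fin k) ℂ →ₗ[ℂ] A) :
    Matrix (Fin (k * R)) (Fin (k * R)) ℂ →ₗ[ℂ] CStarMatrix (Fin R) (Fin R) A where
  toFun M := CStarMatrix.ofMatrix (Matrix.of fun i j =>
    ψ (Matrix.of fun a b => M (finProdFinEquiv (a, i)) (finProdFinEquiv (b, j))))
  map_add' M N := CStarMatrix.ext fun i j => by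
    change ψ _ = ψ _ + ψ _
    rw [← map_add]; congr 1
  map_smul' z M := CStarMatrix.ext fun i j => by
    change ψ _ = z • ψ _
    rw [← map_smul]; congr 1

lemma ampTo_apply (φ : A →ₗ[ℂ] Matrix (Fin k) (Fin k) ℂ) (X : CStarMatrix (Fin R) (Fin R) A)
    (a b : Fin k) (i j : Fin R) :
    ampTo R φ X (finProdFinEquiv (a, i)) (finProdFinEquiv (b, j)) = φ (X i j) a b := by
  simp only [ampTo, LinearMap.coe_mk, AddHom.coe_mk, Matrix.of_apply, Equiv.symm_apply_apply]

lemma isCP_ampTo {φ : A →ₗ[ℂ] Matrix (Fin k) (Fin k) ℂ} (h : IsCP φ) : IsCP (ampTo R φ) := by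
  intro L X
  let e := (finProdFinEquiv : Fin L × Fin R ≃ Fin (L * R))
  let Xt : Matrix (Fin (L * R)) (Fin (L * R)) A :=
    Matrix.of fun s t => X (e.symm s).1 (e.symm t).1 (e.symm s).2 (e.symm t).2
  obtain ⟨Y, hY⟩ := h (L * R) Xt
  refine ⟨Matrix.of fun m l => Matrix.of fun s t =>
    Y (e (m, (finProdFinEquiv.symm s).2)) (e (l, (finProdFinEquiv.symm t).2))
      (finProdFinEquiv.symm s).1 (finProdFinEquiv.symm t).1, ?_⟩
  ext l l' s t
  obtain ⟨⟨a, i⟩, rfl⟩ := finProdFinEquiv.surjective s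
  obtain ⟨⟨b, j⟩, rfl⟩ := finProdFinEquiv.surjective t
  have h1 := congrFun (congrFun (congrFun (congrFun hY (e (l, i))) (e (l', j))) a) b
  rw [Matrix.map_apply] at h1
  have e1 : (star Xt * Xt) (e (l, i)) (e (l', j)) = (star X * X) l l' i j := by
    rw [Matrix.mul_apply, Matrix.mul_apply, ← e.sum_comp, Fintype.sum_prod_type]
    have : (∑ m, star X l m * X m l') i j = ∑ m, (star X l m * X m l') i j := Matrix.sum_apply i j univ _
    rw [this]
    refine sum_congr rfl fun m _ => ?_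
    rw [CStarMatrix.mul_apply]
    refine sum_congr rfl fun q _ => ?_
    simp [Xt, Matrix.star_apply, CStarMatrix.star_apply]
  rw [Matrix.map_apply, ampTo_apply, ← e1, h1, Matrix.mul_apply, Matrix.mul_apply,
    Matrix.sum_apply, Matrix.sum_apply, ← e.sum_comp, Fintype.sum_prod_type]
  refine sum_congr rfl fun m _ => ?_
  rw [Matrix.mul_apply, ← finProdFinEquiv.sum_comp, Fintype.sum_prod_type, sum_comm]
  refine sum_congr rfl fun c _ => ?_
  rw [Matrix.mul_apply]
  exact sum_congr rfl fun q _ => by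
    simp only [Matrix.star_apply, Matrix.of_apply, Equiv.symm_apply_apply]

lemma isCP_ampFrom {ψ : Matrix (Fin k) (Fin k) ℂ →ₗ[ℂ] A} (h : IsCP ψ) : IsCP (ampFrom R ψ) := by
  intro L X
  let e := (finProdFinEquiv : Fin L × Fin R ≃ Fin (L * R))
  let Xt : Matrix (Fin (L * R)) (Fin (L * R)) (Matrix (Fin k) (Fin k) ℂ) :=
    Matrix.of fun s t => Matrix.of fun a b => X (e.symm s).1 (e.symm t).1
      (finProdFinEquiv (a, (e.symm s).2)) (finProdFinEquiv (b, (e.symm t).2))
  obtain ⟨Y, hY⟩ := h (L * R) Xt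
  refine ⟨Matrix.of fun m l => CStarMatrix.ofMatrix
    (Matrix.of fun i j => Y (e (m, i)) (e (l, j))), ?_⟩
  ext l l' i j
  have h1 := congrFun (congrFun hY (e (l, i))) (e (l', j))
  rw [Matrix.map_apply] at h1
  rw [Matrix.map_apply]
  change ψ _ = _
  have e1 : (Matrix.of fun a b => (star X * X) l l' (finProdFinEquiv (a, i)) (finProdFinEquiv (b, j)))
      = (star Xt * Xt) (e (l, i)) (e (l', j)) := by
    ext a b
    rw [Matrix.of_apply, Matrix.mul_apply, Matrix.mul_apply, Matrix.sum_apply, Matrix.sum_apply,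
      ← e.sum_comp, Fintype.sum_prod_type]
    refine sum_congr rfl fun m _ => ?_
    rw [Matrix.mul_apply, ← finProdFinEquiv.sum_comp, Fintype.sum_prod_type, sum_comm]
    refine sum_congr rfl fun q _ => ?_
    rw [Matrix.mul_apply]
    exact sum_congr rfl fun c _ => by simp [Xt, Matrix.star_apply]
  rw [e1, h1, Matrix.mul_apply, Matrix.mul_apply, ← e.sum_comp, Fintype.sum_prod_type]
  refine Eq.trans (sum_congr rfl fun m _ => ?_) (Matrix.sum_apply i j univ _).symm
  rw [CStarMatrix.mul_apply]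
  exact sum_congr rfl fun q _ => by simp [Matrix.star_apply, CStarMatrix.star_apply]

lemma nuclear_matrix [PartialOrder A] [StarOrderedRing A] (hA : IsNuclearAlg A) (R : ℕ) :
    IsNuclearAlg (CStarMatrix (Fin R) (Fin R) A) := by
  classical
  intro F ε hε
  obtain ⟨k, φ, ψ, hφ, hψ, hφ1, hψ1, hF⟩ := hA
    (F.biUnion fun X => univ.image fun p : Fin R × Fin R => X p.1 p.2) (ε / (R * R + 1))
    (by positivity)
  refine ⟨k * R, ampTo R φ, ampFrom R ψ, isCP_ampTo hφ, isCP_ampFrom hψ, ?_, ?_, fun X hX => ?_⟩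
  · ext s t
    obtain ⟨⟨a, i⟩, rfl⟩ := finProdFinEquiv.surjective s
    obtain ⟨⟨b, j⟩, rfl⟩ := finProdFinEquiv.surjective t
    rw [ampTo_apply, CStarMatrix.one_apply, Matrix.one_apply]
    by_cases hij : i = j <;> simp [hij, hφ1, Matrix.one_apply]
  · refine CStarMatrix.ext fun i j => ?_
    change ψ _ = _
    rw [CStarMatrix.one_apply]
    by_cases hij : i = j
    · rw [if_pos hij, ← hψ1]; congr 1; ext a b; simp [Matrix.one_apply, hij]
    · rw [if_neg hij]
      convert map_zero ψ using 2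
      ext a b; simp [hij]
  · have hent : ∀ i j, (ampFrom R ψ (ampTo R φ X) - X) i j = ψ (φ (X i j)) - X i j := by
      intro i j
      rw [CStarMatrix.sub_apply]
      change ψ _ - _ = _
      congr 2
      ext a b
      exact ampTo_apply φ X a b i j
    refine lt_of_le_of_lt (norm_le_sum _) ?_
    have hbd : ∀ i j, ‖(ampFrom R ψ (ampTo R φ X) - X) i j‖ ≤ ε / (R * R + 1) := fun i j => by
      rw [hent]
      exact (hF _ (mem_biUnion.2 ⟨X, hX, mem_image.2 ⟨(i, j), mem_univ _, rfl⟩⟩)).le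
    refine lt_of_le_of_lt (sum_le_sum fun i _ => sum_le_sum fun j _ => hbd i j) ?_
    simp only [sum_const, card_univ, Fintype.card_fin, nsmul_eq_mul]
    rw [← mul_assoc, ← mul_div_assoc, div_lt_iff₀ (by positivity)]
    nlinarith

end Vale.Agent.P095.Amenable.Small
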