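import Mathlib

/-!
An isometry onto the range of a projection matrix.
-/

open Matrix

namespace Vale.Agent.P095.Amenable.Small

lemma exists_isometry {L : ℕ} (P : Matrix (Fin L) (Fin L) ℂ) (h1 : star P = P) (h2 : P * P = P) :
    ∃ (r : ℕ) (W : Fin L → Fin r → ℂ), P.trace.re = r ∧
      (∀ i j, ∑ b, star (W b i) * W b j = if i = j then 1 else 0) ∧
      ∀ b i, ∑ b', P b b' * W b' i = W b i := by
  classical
  have hP : P.IsHermitian := h1
  set U : Matrix (Fin L) (Fin L) ℂ := (hP.eigenvectorUnitary : Matrix (Fin L) (Fin L) ℂ) with hU
  set d : Fin L → ℂ := fun i => (hP.eigenvalues i : ℂ) with hd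
  have hUU : star U * U = 1 := Unitary.coe_star_mul_self _
  have hUU' : U * star U = 1 := Unitary.coe_mul_star_self _
  have hD : star U * P * U = diagonal d := by
    have h := hP.conjStarAlgAut_star_eigenvectorUnitary
    simpa [Unitary.conjStarAlgAut_apply, hU, hd, Function.comp_def] using h
  have hd2 : ∀ i, d i * d i = d i := by
    intro i
    have h : diagonal d * diagonal d = diagonal d := by
      rw [← hD]
      calc star U * P * U * (star U * P * U) = star U * (P * (U * star U) * P) * U := by
            simp only [Matrix.mul_assoc]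
        _ = star U * P * U := by rw [hUU', Matrix.mul_one, h2]
    rw [diagonal_mul_diagonal] at h
    exact congrFun (diagonal_injective h) i
  have hPU : P * U = U * diagonal d := by
    rw [← hD, ← Matrix.mul_assoc, ← Matrix.mul_assoc, hUU', Matrix.one_mul]
  set s : Finset (Fin L) := Finset.univ.filter fun i => d i = 1 with hs
  let e := s.equivFin.symm
  refine ⟨s.card, fun b i => U b (e i), ?_, fun i j => ?_, fun b i => ?_⟩
  · rw [hP.trace_eq_sum_eigenvalues]
    have : ∀ i, d i = if d i = 1 then 1 else 0 := fun i => by
      split_ifs with h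
      · exact h
      · rcases eq_or_ne (d i) 0 with h0 | h0
        · exact h0
        · exact absurd (mul_left_cancel₀ h0 (by rw [hd2 i, mul_one])) h
    change (∑ i, d i).re = _
    rw [Finset.sum_congr rfl fun i _ => this i, Finset.sum_boole, hs]
    simp
  · have h := congrFun (congrFun hUU (e i : Fin L)) (e j : Fin L)
    rw [Matrix.mul_apply, Matrix.one_apply] at h
    simp only [Matrix.star_apply] at h
    rw [h]
    simp [Subtype.coe_injective.eq_iff]
  · have h := congrFun (congrFun hPU b) (e i : Fin L)
    rw [Matrix.mul_apply, mul_diagonal] at h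
    rw [h, show d (e i : Fin L) = 1 from (Finset.mem_filter.1 (e i).2).2, mul_one]

end Vale.Agent.P095.Amenable.Small
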